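import Mathlib
import Vale.Agent.Lib.P335.helper26.BipDefs

/-!
P335, bipartite core: the fibre of a row subset is a small margin system.

For a set `T` of `k` rows, the class of matrices that agree with a given `x0` outside `T` is
the image of an injective map `iota` from the `k`-row margin system whose column sums are the
column sums of the rows of `x0` in `T`.  Conditional expectations `R q` with `q ⊆ T` and
switches inside `T` are transported by `iota`, so that inequalities for `3`-row and `2`-row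
systems transfer to row triples and row pairs of an arbitrary system.
-/

namespace Vale.Agent.Lib.P335.Bip

open Finset

namespace H45

section transfer

variable {m n k : ℕ}

lemma mask_eq_iff (p : Finset (Fin m)) (x y : Mat m n) :
    mask p x = mask p y ↔ ∀ i, i ∉ p → x i = y i := by
  constructor
  · intro h i hi
    have h1 := congrFun h i
    simp only [mask, hi, if_false] at h1
    exact h1
  · intro h
    funext i
    by_cases hi : i ∈ p
    · simp only [mask, hi, if_true]
    · simp only [mask, hi, if_false]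
      exact h i hi

lemma swMat_apply (x : Mat m n) (i i' : Fin m) (j j' : Fin n) (l : Fin m) :
    swMat x i i' j j' l = if l = i' then insert j ((x i').erase j')
      else if l = i then insert j' ((x i).erase j) else x l := by
  unfold swMat
  simp only [Function.update_apply]

/-- restriction of a matrix to the rows `φ a` -/
def res (φ : Fin k ↪ Fin m) (x : Mat m n) : Mat k n := fun a => x (φ a)

/-- the matrix with rows `z a` at `φ a` and the rows of `x0` elsewhere -/
noncomputable def emb (φ : Fin k ↪ Fin m) (x0 : Mat m n) (z : Mat k n) : Mat m n :=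
  fun i => if h : ∃ a, φ a = i then z h.choose else x0 i

lemma emb_apply_emb (φ : Fin k ↪ Fin m) (x0 : Mat m n) (z : Mat k n) (a : Fin k) :
    emb φ x0 z (φ a) = z a := by
  have h : ∃ b, φ b = φ a := ⟨a, rfl⟩
  unfold emb
  rw [dif_pos h]
  congr 1
  exact φ.injective h.choose_spec

lemma mem_univ_map_iff (φ : Fin k ↪ Fin m) (i : Fin m) :
    i ∈ (univ : Finset (Fin k)).map φ ↔ ∃ a, φ a = i := by
  simp only [mem_map, mem_univ, true_and]

lemma emb_apply_of_not (φ : Fin k ↪ Fin m) (x0 : Mat m n) (z : Mat k n) {i : Fin m}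
    (hi : i ∉ (univ : Finset (Fin k)).map φ) : emb φ x0 z i = x0 i := by
  have h : ¬ ∃ a, φ a = i := fun h' => hi ((mem_univ_map_iff φ i).mpr h')
  unfold emb
  rw [dif_neg h]

lemma res_emb (φ : Fin k ↪ Fin m) (x0 : Mat m n) (z : Mat k n) : res φ (emb φ x0 z) = z := by
  funext a
  exact emb_apply_emb φ x0 z a

lemma colSum_split (φ : Fin k ↪ Fin m) (x : Mat m n) (j : Fin n) :
    colSum x j = colSum (res φ x) j
      + (univ.filter (fun i => i ∉ (univ : Finset (Fin k)).map φ ∧ j ∈ x i)).card := by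
  unfold colSum res
  have h1 : (univ.filter (fun a : Fin k => j ∈ x (φ a))).card
      = (univ.filter (fun i : Fin m => i ∈ (univ : Finset (Fin k)).map φ ∧ j ∈ x i)).card := by
    rw [← Finset.card_map φ]
    congr 1
    ext i
    simp only [mem_map, mem_filter, mem_univ, true_and]
    constructor
    · rintro ⟨a, ha, rfl⟩
      exact ⟨⟨a, rfl⟩, ha⟩
    · rintro ⟨⟨a, rfl⟩, ha⟩
      exact ⟨a, ha, rfl⟩
  rw [h1, ← card_union_of_disjoint]
  · congr 1
    ext i
    simp only [mem_filter, mem_univ, true_and, mem_union]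
    tauto
  · rw [Finset.disjoint_left]
    intro i hi hi'
    simp only [mem_filter, mem_univ, true_and] at hi hi'
    exact hi'.1 hi.1

variable {r : Fin m → ℕ} {c : Fin n → ℕ}

lemma emb_rows (φ : Fin k ↪ Fin m) (x0 : Om m n r c)
    (z : Om k n (r ∘ φ) (colSum (res φ x0.1))) (i : Fin m) :
    (emb φ x0.1 z.1 i).card = r i := by
  by_cases h : i ∈ (univ : Finset (Fin k)).map φ
  · obtain ⟨a, rfl⟩ := (mem_univ_map_iff φ i).mp h
    rw [emb_apply_emb]
    exact z.2.1 a
  · rw [emb_apply_of_not φ x0.1 z.1 h]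
    exact x0.2.1 i

lemma emb_cols (φ : Fin k ↪ Fin m) (x0 : Om m n r c)
    (z : Om k n (r ∘ φ) (colSum (res φ x0.1))) (j : Fin n) :
    colSum (emb φ x0.1 z.1) j = c j := by
  have h3 : (univ.filter (fun i => i ∉ (univ : Finset (Fin k)).map φ ∧ j ∈ emb φ x0.1 z.1 i))
      = (univ.filter (fun i => i ∉ (univ : Finset (Fin k)).map φ ∧ j ∈ x0.1 i)) := by
    apply Finset.filter_congr
    intro i _
    constructor
    · rintro ⟨a1, a2⟩
      rw [emb_apply_of_not φ x0.1 z.1 a1] at a2
      exact ⟨a1, a2⟩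
    · rintro ⟨a1, a2⟩
      refine ⟨a1, ?_⟩
      rw [emb_apply_of_not φ x0.1 z.1 a1]
      exact a2
  have h1 := colSum_split φ (emb φ x0.1 z.1) j
  have h2 := colSum_split φ x0.1 j
  rw [res_emb, z.2.2 j, h3] at h1
  rw [x0.2.2 j] at h2
  rw [h1, h2]

/-- the embedding of the `k`-row system into the class of `x0` -/
noncomputable def iota (φ : Fin k ↪ Fin m) (x0 : Om m n r c)
    (z : Om k n (r ∘ φ) (colSum (res φ x0.1))) : Om m n r c :=
  ⟨emb φ x0.1 z.1, emb_rows φ x0 z, emb_cols φ x0 z⟩

lemma iota_val (φ : Fin k ↪ Fin m) (x0 : Om m n r c)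
    (z : Om k n (r ∘ φ) (colSum (res φ x0.1))) : (iota φ x0 z).1 = emb φ x0.1 z.1 := rfl

lemma iota_injective (φ : Fin k ↪ Fin m) (x0 : Om m n r c) :
    Function.Injective (iota φ x0) := by
  intro z z' h
  apply Subtype.ext
  have h1 := congrArg (fun y : Om m n r c => res φ y.1) h
  simp only [iota_val, res_emb] at h1
  exact h1

lemma iota_agree (φ : Fin k ↪ Fin m) (x0 : Om m n r c)
    (z : Om k n (r ∘ φ) (colSum (res φ x0.1))) {i : Fin m}
    (hi : i ∉ (univ : Finset (Fin k)).map φ) : (iota φ x0 z).1 i = x0.1 i :=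
  emb_apply_of_not φ x0.1 z.1 hi

lemma exists_iota_eq (φ : Fin k ↪ Fin m) (x0 y : Om m n r c)
    (h : ∀ i, i ∉ (univ : Finset (Fin k)).map φ → y.1 i = x0.1 i) :
    ∃ z, iota φ x0 z = y := by
  have hcols : ∀ j, colSum (res φ y.1) j = colSum (res φ x0.1) j := by
    intro j
    have h1 := colSum_split φ y.1 j
    have h2 := colSum_split φ x0.1 j
    rw [y.2.2 j] at h1
    rw [x0.2.2 j] at h2
    have h3 : (univ.filter (fun i => i ∉ (univ : Finset (Fin k)).map φ ∧ j ∈ y.1 i))
        = (univ.filter (fun i => i ∉ (univ : Finset (Fin k)).map φ ∧ j ∈ x0.1 i)) := by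
      apply Finset.filter_congr
      intro i _
      constructor
      · rintro ⟨a1, a2⟩
        rw [h i a1] at a2
        exact ⟨a1, a2⟩
      · rintro ⟨a1, a2⟩
        refine ⟨a1, ?_⟩
        rw [h i a1]
        exact a2
    rw [h3] at h1
    omega
  refine ⟨⟨res φ y.1, fun a => y.2.1 (φ a), hcols⟩, ?_⟩
  apply Subtype.ext
  funext i
  by_cases hi : i ∈ (univ : Finset (Fin k)).map φ
  · obtain ⟨a, rfl⟩ := (mem_univ_map_iff φ i).mp hi
    rw [iota_val, emb_apply_emb]
    rfl
  · rw [iota_val, emb_apply_of_not φ x0.1 _ hi, h i hi]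

lemma mask_iota_iff (φ : Fin k ↪ Fin m) (x0 : Om m n r c) (q : Finset (Fin k))
    (z z' : Om k n (r ∘ φ) (colSum (res φ x0.1))) :
    mask (q.map φ) (iota φ x0 z').1 = mask (q.map φ) (iota φ x0 z).1
      ↔ mask q z'.1 = mask q z.1 := by
  rw [mask_eq_iff, mask_eq_iff]
  constructor
  · intro h a ha
    have h1 := h (φ a) (fun hq => ha ((mem_map' φ).mp hq))
    rw [iota_val, iota_val, emb_apply_emb, emb_apply_emb] at h1
    exact h1
  · intro h i hi
    by_cases hi' : i ∈ (univ : Finset (Fin k)).map φ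
    · obtain ⟨a, rfl⟩ := (mem_univ_map_iff φ i).mp hi'
      rw [iota_val, iota_val, emb_apply_emb, emb_apply_emb]
      exact h a (fun ha => hi (mem_map_of_mem φ ha))
    · rw [iota_agree φ x0 z' hi', iota_agree φ x0 z hi']

lemma class_eq_image (φ : Fin k ↪ Fin m) (x0 : Om m n r c) :
    univ.filter (fun y : Om m n r c =>
        mask ((univ : Finset (Fin k)).map φ) y.1 = mask ((univ : Finset (Fin k)).map φ) x0.1)
      = univ.image (iota φ x0) := by
  ext y
  simp only [mem_filter, mem_univ, true_and, mem_image]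
  rw [mask_eq_iff]
  constructor
  · intro h
    exact exists_iota_eq φ x0 y h
  · rintro ⟨z, rfl⟩ i hi
    exact iota_agree φ x0 z hi

lemma sum_class (φ : Fin k ↪ Fin m) (x0 : Om m n r c) (G : Om m n r c → ℝ) :
    ∑ y ∈ univ.filter (fun y : Om m n r c =>
        mask ((univ : Finset (Fin k)).map φ) y.1 = mask ((univ : Finset (Fin k)).map φ) x0.1),
      G y = ∑ z, G (iota φ x0 z) := by
  rw [class_eq_image, Finset.sum_image]
  intro z _ z' _ h
  exact iota_injective φ x0 h

lemma R_apply (p : Finset (Fin m)) (f : Om m n r c → ℝ) (x : Om m n r c) :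
    R p f x = (∑ y ∈ univ.filter (fun y : Om m n r c => mask p y.1 = mask p x.1), f y) /
      ((univ.filter (fun y : Om m n r c => mask p y.1 = mask p x.1)).card : ℝ) := rfl

lemma fibre_iota (φ : Fin k ↪ Fin m) (x0 : Om m n r c) (q : Finset (Fin k))
    (z : Om k n (r ∘ φ) (colSum (res φ x0.1))) :
    univ.filter (fun y : Om m n r c =>
        mask (q.map φ) y.1 = mask (q.map φ) (iota φ x0 z).1)
      = (univ.filter (fun z' : Om k n (r ∘ φ) (colSum (res φ x0.1)) =>
          mask q z'.1 = mask q z.1)).image (iota φ x0) := by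
  ext y
  simp only [mem_filter, mem_univ, true_and, mem_image]
  constructor
  · intro h
    have h1 : ∀ i, i ∉ (univ : Finset (Fin k)).map φ → y.1 i = x0.1 i := by
      intro i hi
      have h2 := (mask_eq_iff _ _ _).mp h i
        (fun hq => hi (map_subset_map.mpr (subset_univ q) hq))
      rw [h2, iota_agree φ x0 z hi]
    obtain ⟨z', rfl⟩ := exists_iota_eq φ x0 y h1
    exact ⟨z', (mask_iota_iff φ x0 q z z').mp h, rfl⟩
  · rintro ⟨z', hz', rfl⟩
    exact (mask_iota_iff φ x0 q z z').mpr hz'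

lemma R_iota (φ : Fin k ↪ Fin m) (x0 : Om m n r c) (q : Finset (Fin k))
    (f : Om m n r c → ℝ) (z : Om k n (r ∘ φ) (colSum (res φ x0.1)))
    (g : Om k n (r ∘ φ) (colSum (res φ x0.1)) → ℝ) (hg : ∀ z', g z' = f (iota φ x0 z')) :
    R (q.map φ) f (iota φ x0 z) = R q g z := by
  have hgf : g = fun z' => f (iota φ x0 z') := funext hg
  subst hgf
  rw [R_apply, R_apply, fibre_iota, Finset.sum_image,
    Finset.card_image_of_injective _ (iota_injective φ x0)]
  intro a _ b _ h
  exact iota_injective φ x0 h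

lemma isSwitchIn_iota (φ : Fin k ↪ Fin m) (x0 : Om m n r c) (q : Finset (Fin k))
    (z z' : Om k n (r ∘ φ) (colSum (res φ x0.1))) (h : IsSwitchIn q z.1 z'.1) :
    IsSwitchIn (q.map φ) (iota φ x0 z).1 (iota φ x0 z').1 := by
  obtain ⟨i, i', j, j', hi, hi', hne, hj, h1, h2, h3, h4, heq⟩ := h
  refine ⟨φ i, φ i', j, j', mem_map_of_mem φ hi, mem_map_of_mem φ hi',
    fun e => hne (φ.injective e), hj, ?_, ?_, ?_, ?_, ?_⟩
  · rw [iota_val, emb_apply_emb]
    exact h1
  · rw [iota_val, emb_apply_emb]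
    exact h2
  · rw [iota_val, emb_apply_emb]
    exact h3
  · rw [iota_val, emb_apply_emb]
    exact h4
  · funext l
    rw [swMat_apply, iota_val, iota_val]
    by_cases hl : l ∈ (univ : Finset (Fin k)).map φ
    · obtain ⟨a, rfl⟩ := (mem_univ_map_iff φ l).mp hl
      simp only [emb_apply_emb, heq, swMat_apply, EmbeddingLike.apply_eq_iff_eq]
    · have hl1 : l ≠ φ i' := fun e => hl (e ▸ mem_map_of_mem φ (mem_univ i'))
      have hl2 : l ≠ φ i := fun e => hl (e ▸ mem_map_of_mem φ (mem_univ i))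
      rw [if_neg hl1, if_neg hl2, emb_apply_of_not φ x0.1 _ hl, emb_apply_of_not φ x0.1 _ hl]

/-- an inequality between sums over the whole system follows from the inequalities between the
sums over each class of matrices with the same rows outside `T` -/
lemma sum_le_sum_of_classes (T : Finset (Fin m)) (H1 H2 : Om m n r c → ℝ)
    (h : ∀ x0 : Om m n r c,
      ∑ y ∈ univ.filter (fun y : Om m n r c => mask T y.1 = mask T x0.1), H1 y
        ≤ ∑ y ∈ univ.filter (fun y : Om m n r c => mask T y.1 = mask T x0.1), H2 y) :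
    ∑ x, H1 x ≤ ∑ x, H2 x := by
  have hmaps : ∀ x ∈ (univ : Finset (Om m n r c)),
      mask T x.1 ∈ univ.image (fun x : Om m n r c => mask T x.1) :=
    fun x _ => mem_image_of_mem _ (mem_univ x)
  rw [← Finset.sum_fiberwise_of_maps_to hmaps H1, ← Finset.sum_fiberwise_of_maps_to hmaps H2]
  apply Finset.sum_le_sum
  intro μ hμ
  obtain ⟨x0, -, rfl⟩ := mem_image.mp hμ
  exact h x0

end transfer

end H45

open H45

/-- **Row triples.**  The three-row inequality transfers to every row triple of a margin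
system with any number of rows. -/
theorem triple_of_threeRow
    (h3 : ∀ (n : ℕ) (r : Fin 3 → ℕ) (c : Fin n → ℕ) (g : Om 3 n r c → ℝ),
      ∑ q ∈ (univ : Finset (Fin 3)).powersetCard 2, ip g (R q g) ≤ 2 * ip g g + ip g (R univ g))
    {m n : ℕ} {r : Fin m → ℕ} {c : Fin n → ℕ} (T : Finset (Fin m)) (hT : T.card = 3)
    (f : Om m n r c → ℝ) :
    ∑ p ∈ T.powersetCard 2, ip f (R p f) ≤ 2 * ip f f + ip f (R T f) := by
  obtain ⟨φ, rfl⟩ : ∃ φ : Fin 3 ↪ Fin m, (univ : Finset (Fin 3)).map φ = T :=
    ⟨(T.orderEmbOfFin hT).toEmbedding, map_orderEmbOfFin_univ T hT⟩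
  have hL : ∑ p ∈ ((univ : Finset (Fin 3)).map φ).powersetCard 2, ip f (R p f)
      = ∑ x, ∑ p ∈ ((univ : Finset (Fin 3)).map φ).powersetCard 2, f x * R p f x := by
    unfold ip
    rw [Finset.sum_comm]
  have hR : 2 * ip f f + ip f (R ((univ : Finset (Fin 3)).map φ) f)
      = ∑ x, (2 * (f x * f x) + f x * R ((univ : Finset (Fin 3)).map φ) f x) := by
    unfold ip
    rw [Finset.sum_add_distrib, Finset.mul_sum]
  rw [hL, hR]
  apply sum_le_sum_of_classes ((univ : Finset (Fin 3)).map φ)
  intro x0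
  rw [sum_class, sum_class]
  obtain ⟨g, hg⟩ : ∃ g : Om 3 n (r ∘ φ) (colSum (res φ x0.1)) → ℝ,
      ∀ z, g z = f (iota φ x0 z) := ⟨_, fun _ => rfl⟩
  have key := h3 n (r ∘ φ) (colSum (res φ x0.1)) g
  unfold ip at key
  rw [Finset.sum_comm] at key
  have e1 : ∀ z, ∑ p ∈ ((univ : Finset (Fin 3)).map φ).powersetCard 2,
        f (iota φ x0 z) * R p f (iota φ x0 z)
      = ∑ q ∈ (univ : Finset (Fin 3)).powersetCard 2, g z * R q g z := by
    intro z
    rw [powersetCard_map, Finset.sum_map]
    refine Finset.sum_congr rfl (fun q _ => ?_)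
    simp only [RelEmbedding.coe_toEmbedding, mapEmbedding_apply]
    rw [R_iota φ x0 q f z g hg, hg z]
  have e2 : ∀ z, 2 * (f (iota φ x0 z) * f (iota φ x0 z))
        + f (iota φ x0 z) * R ((univ : Finset (Fin 3)).map φ) f (iota φ x0 z)
      = 2 * (g z * g z) + g z * R univ g z := by
    intro z
    rw [R_iota φ x0 univ f z g hg, hg z]
  simp only [e1, e2]
  rw [Finset.sum_add_distrib, ← Finset.mul_sum]
  exact key

open scoped Classical in
/-- **Row pairs.**  The two-row switch inequality transfers to every row pair of a margin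
system with any number of rows. -/
theorem pair_of_twoRow
    (h2 : ∀ (n : ℕ) (r : Fin 2 → ℕ) (c : Fin n → ℕ) (g : Om 2 n r c → ℝ),
      4 * (ip g g - ip g (R univ g)) ≤ ∑ x, ∑ y, if IsSwitch x.1 y.1 then (g x - g y) ^ 2 else 0)
    {m n : ℕ} {r : Fin m → ℕ} {c : Fin n → ℕ} (p : Finset (Fin m)) (hp : p.card = 2)
    (f : Om m n r c → ℝ) :
    4 * (ip f f - ip f (R p f)) ≤ ∑ x, ∑ y, if IsSwitchIn p x.1 y.1 then (f x - f y) ^ 2 else 0 := by
  obtain ⟨φ, rfl⟩ : ∃ φ : Fin 2 ↪ Fin m, (univ : Finset (Fin 2)).map φ = p :=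
    ⟨(p.orderEmbOfFin hp).toEmbedding, map_orderEmbOfFin_univ p hp⟩
  have hL : 4 * (ip f f - ip f (R ((univ : Finset (Fin 2)).map φ) f))
      = ∑ x, 4 * (f x * f x - f x * R ((univ : Finset (Fin 2)).map φ) f x) := by
    unfold ip
    rw [← Finset.sum_sub_distrib, Finset.mul_sum]
  rw [hL]
  apply sum_le_sum_of_classes ((univ : Finset (Fin 2)).map φ)
  intro x0
  rw [sum_class, sum_class]
  obtain ⟨g, hg⟩ : ∃ g : Om 2 n (r ∘ φ) (colSum (res φ x0.1)) → ℝ,
      ∀ z, g z = f (iota φ x0 z) := ⟨_, fun _ => rfl⟩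
  have key := h2 n (r ∘ φ) (colSum (res φ x0.1)) g
  have hLk : ∑ z, 4 * (f (iota φ x0 z) * f (iota φ x0 z)
        - f (iota φ x0 z) * R ((univ : Finset (Fin 2)).map φ) f (iota φ x0 z))
      = 4 * (ip g g - ip g (R univ g)) := by
    unfold ip
    rw [← Finset.sum_sub_distrib, Finset.mul_sum]
    refine Finset.sum_congr rfl (fun z _ => ?_)
    rw [R_iota φ x0 univ f z g hg, hg z]
  rw [hLk]
  refine key.trans ?_
  apply Finset.sum_le_sum
  intro z _
  calc ∑ z', (if IsSwitch z.1 z'.1 then (g z - g z') ^ 2 else 0)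
      ≤ ∑ z', (if IsSwitchIn ((univ : Finset (Fin 2)).map φ) (iota φ x0 z).1 (iota φ x0 z').1
          then (f (iota φ x0 z) - f (iota φ x0 z')) ^ 2 else 0) := by
        apply Finset.sum_le_sum
        intro z' _
        by_cases hs : IsSwitch z.1 z'.1
        · rw [if_pos hs, if_pos (isSwitchIn_iota φ x0 univ z z' hs), hg, hg]
        · rw [if_neg hs]
          split_ifs
          · positivity
          · exact le_refl 0
    _ = ∑ y ∈ univ.image (iota φ x0),
          (if IsSwitchIn ((univ : Finset (Fin 2)).map φ) (iota φ x0 z).1 y.1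
            then (f (iota φ x0 z) - f y) ^ 2 else 0) := by
        rw [Finset.sum_image]
        intro a _ b _ h
        exact iota_injective φ x0 h
    _ ≤ ∑ y, (if IsSwitchIn ((univ : Finset (Fin 2)).map φ) (iota φ x0 z).1 y.1
            then (f (iota φ x0 z) - f y) ^ 2 else 0) := by
        apply Finset.sum_le_sum_of_subset_of_nonneg (subset_univ _)
        intro y _ _
        split_ifs
        · positivity
        · exact le_refl 0

end Vale.Agent.Lib.P335.Bip
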