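import Vale.Agent.Lib.P335.helper72.GraphDefs

/-!
Definitions for the pairwise inequality of the graph case of P335.

For four distinct vertices `x y z w` (pole pairs `p = {x, y}` and `q = {z, w}`):

* `Sep x y z w G` : the cross block of `G` between `{x, y}` and `{z, w}` is one of the two
  perfect matchings `{xz, yw}`, `{xw, yz}`.
* `tauG x y z w G`, `tau x y z w` : the switch on the 4-cycle `x z y w` (the two matchings are
  exchanged when `Sep` holds, and nothing happens otherwise), on graphs and on `Omega n d`.
* `GRX x y z w` : conditional expectation given `G - {x, y}` and the event `Sep x y z w`.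
* `K x y z w f` : the squared norm of `1_Sep * (GRX x y z w f - GR {x, y} f)`.
-/

namespace Vale.Agent.Lib.P335.H45G

open Finset
open scoped Classical
open Vale.Agent.Lib.P335 Vale.Agent.Lib.P335.Bip Vale.Agent.Lib.P335.Gr

variable {n : ℕ}

/-- The cross block of `G` between `{x, y}` and `{z, w}` is one of the two perfect matchings
`{xz, yw}`, `{xw, yz}`. -/
def Sep (x y z w : Fin n) (G : SimpleGraph (Fin n)) : Prop :=
  (G.Adj x z ∧ G.Adj y w ∧ ¬ G.Adj x w ∧ ¬ G.Adj y z) ∨
    (G.Adj x w ∧ G.Adj y z ∧ ¬ G.Adj x z ∧ ¬ G.Adj y w)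

/-- `(a, b)` is one of the four cross pairs between `{x, y}` and `{z, w}`, in either order. -/
def IsCross (x y z w a b : Fin n) : Prop :=
  ((a = x ∨ a = y) ∧ (b = z ∨ b = w)) ∨ ((a = z ∨ a = w) ∧ (b = x ∨ b = y))

theorem isCross_symm (x y z w a b : Fin n) : IsCross x y z w a b ↔ IsCross x y z w b a := by
  unfold IsCross
  tauto

/-- The switch on the 4-cycle `x z y w`: when `Sep x y z w G` holds, the four cross pairs are
flipped (so the matchings `{xz, yw}` and `{xw, yz}` are exchanged); otherwise `G` is unchanged. -/
def tauG (x y z w : Fin n) (G : SimpleGraph (Fin n)) : SimpleGraph (Fin n) where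
  Adj a b := a ≠ b ∧ (G.Adj a b ↔ ¬ (Sep x y z w G ∧ IsCross x y z w a b))
  symm := ⟨fun a b h => ⟨h.1.symm, by
    rw [isCross_symm x y z w b a, G.adj_comm b a]
    exact h.2⟩⟩
  loopless := ⟨fun a h => h.1 rfl⟩

theorem tauG_adj (x y z w : Fin n) (G : SimpleGraph (Fin n)) (a b : Fin n) :
    (tauG x y z w G).Adj a b ↔
      a ≠ b ∧ (G.Adj a b ↔ ¬ (Sep x y z w G ∧ IsCross x y z w a b)) := Iff.rfl

/-- The switch `tauG x y z w` on `Omega n d` (for pairwise distinct `x y z w` the degree
condition always holds, see `tau_val`). -/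
noncomputable def tau {d : Fin n → ℕ} (x y z w : Fin n) (G : Omega n d) : Omega n d :=
  if h : ∀ v, (tauG x y z w G.1).degree v = d v then ⟨tauG x y z w G.1, h⟩ else G

/-- Conditional expectation given `G - {x, y}` and the event `Sep x y z w`. -/
noncomputable def GRX {d : Fin n → ℕ} (x y z w : Fin n) :
    (Omega n d → ℝ) →ₗ[ℝ] (Omega n d → ℝ) :=
  cexp (fun G : Omega n d => (gmask {x, y} G.1, Sep x y z w G.1))

/-- `K x y z w f` is the squared norm of `1_Sep * (E[f | G - {x,y}, 1_Sep] - E[f | G - {x,y}])`. -/
noncomputable def K {d : Fin n → ℕ} (x y z w : Fin n) (f : Omega n d → ℝ) : ℝ :=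
  ∑ G : Omega n d, if Sep x y z w G.1 then (GRX x y z w f G - GR {x, y} f G) ^ 2 else 0

end Vale.Agent.Lib.P335.H45G

namespace Vale.Agent.Lib.P335.H45G

open Finset
open scoped Classical
open Vale.Agent.Lib.P335 Vale.Agent.Lib.P335.Bip Vale.Agent.Lib.P335.Gr

variable {n : ℕ}

/-- The cross block of `G` between `{x, y}` and `{z, w}` as four Booleans, in the order
`xz, xw, yz, yw`. -/
noncomputable def cb (x y z w : Fin n) (G : SimpleGraph (Fin n)) : Bool × Bool × Bool × Bool :=
  (decide (G.Adj x z), decide (G.Adj x w), decide (G.Adj y z), decide (G.Adj y w))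

/-- A block of four Booleans is kept when it has exactly two ones and is replaced by the zero
block otherwise. -/
def mo4 (m : Bool × Bool × Bool × Bool) : Bool × Bool × Bool × Bool :=
  if m.1.toNat + m.2.1.toNat + m.2.2.1.toNat + m.2.2.2.toNat = 2 then m
  else (false, false, false, false)

/-- The cross block of `G` when it has exactly two edges, and the zero block otherwise. -/
noncomputable def Mo (x y z w : Fin n) (G : SimpleGraph (Fin n)) : Bool × Bool × Bool × Bool :=
  mo4 (cb x y z w G)

/-- Degree bookkeeping: if the neighbourhoods of `v` in `G` and `G'` agree outside `{a, b}`, then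
the degrees of `v` differ by the difference of the numbers of neighbours in `{a, b}`. -/
theorem degree_two_transfer {G G' : SimpleGraph (Fin n)} {v a b : Fin n}
    [Fintype (G.neighborSet v)] [Fintype (G'.neighborSet v)] (hab : a ≠ b)
    (h : ∀ u, u ≠ a → u ≠ b → (G.Adj v u ↔ G'.Adj v u)) :
    G.degree v + ((decide (G'.Adj v a)).toNat + (decide (G'.Adj v b)).toNat) =
      G'.degree v + ((decide (G.Adj v a)).toNat + (decide (G.Adj v b)).toNat) := by
  have key : ∀ (H : SimpleGraph (Fin n)) [Fintype (H.neighborSet v)],
      H.degree v = ((H.neighborFinset v).filter (fun u => ¬ (u = a ∨ u = b))).card +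
        ((decide (H.Adj v a)).toNat + (decide (H.Adj v b)).toNat) := by
    intro H _
    have h1 := Finset.card_filter_add_card_filter_not (s := H.neighborFinset v)
      (fun u => u = a ∨ u = b)
    have h2 : ((H.neighborFinset v).filter (fun u => u = a ∨ u = b)).card =
        (decide (H.Adj v a)).toNat + (decide (H.Adj v b)).toNat := by
      rw [Finset.filter_or, Finset.card_union_of_disjoint]
      · congr 1
        · rw [Finset.filter_eq']
          by_cases ha : H.Adj v a
          · simp [ha]
          · simp [ha]
        · rw [Finset.filter_eq']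
          by_cases hb : H.Adj v b
          · simp [hb]
          · simp [hb]
      · rw [Finset.disjoint_left]
        intro u hu hu'
        rw [Finset.mem_filter] at hu hu'
        exact hab (hu.2.symm.trans hu'.2)
    unfold SimpleGraph.degree
    omega
  have hfilt : (G.neighborFinset v).filter (fun u => ¬ (u = a ∨ u = b)) =
      (G'.neighborFinset v).filter (fun u => ¬ (u = a ∨ u = b)) := by
    ext u
    simp only [Finset.mem_filter, SimpleGraph.mem_neighborFinset, not_or]
    constructor
    · rintro ⟨hu, hua, hub⟩
      exact ⟨(h u hua hub).mp hu, hua, hub⟩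
    · rintro ⟨hu, hua, hub⟩
      exact ⟨(h u hua hub).mpr hu, hua, hub⟩
  rw [key G, key G', hfilt]
  omega

end Vale.Agent.Lib.P335.H45G
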