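import Vale.Agent.Lib.P335.helper26.Abstract

/-!
Abstract commutation of conditional expectations from a square completion property, and a
comparison lemma for conditional expectations whose keys have the same classes.
-/

namespace Vale.Agent.Lib.P335.H45G

open Finset
open Vale.Agent.Lib.P335.Bip

section

variable {Ω : Type*} [Fintype Ω]

/-- Conditional expectations with respect to keys with the same classes coincide. -/
theorem cexp_same_fibres {K K' : Type*} [DecidableEq K] [DecidableEq K'] (κ : Ω → K)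
    (κ' : Ω → K') (h : ∀ a b, κ a = κ b ↔ κ' a = κ' b) (f : Ω → ℝ) : cexp κ f = cexp κ' f := by
  funext a
  rw [cexp_apply, cexp_apply]
  have : univ.filter (fun b => κ b = κ a) = univ.filter (fun b => κ' b = κ' a) := by
    ext b
    simp only [Finset.mem_filter, Finset.mem_univ, true_and]
    exact h b a
  rw [this]

/-- Class averages agree at two points whose classes are matched by a bijection preserving
the function. -/
theorem cexp_eq_of_transport {K : Type*} [DecidableEq K] (κ : Ω → K) (g : Ω → ℝ) (a b : Ω)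
    (φ ψ : Ω → Ω)
    (hφ : ∀ u, κ u = κ a → κ (φ u) = κ b ∧ ψ (φ u) = u ∧ g (φ u) = g u)
    (hψ : ∀ v, κ v = κ b → κ (ψ v) = κ a ∧ φ (ψ v) = v) :
    cexp κ g a = cexp κ g b := by
  rw [cexp_apply, cexp_apply]
  have hsum : ∀ s : Ω → ℝ, (∀ u, κ u = κ a → s (φ u) = s u) →
      ∑ u ∈ univ.filter (fun u => κ u = κ a), s u =
        ∑ v ∈ univ.filter (fun v => κ v = κ b), s v := by
    intro s hs
    refine Finset.sum_nbij' φ ψ ?_ ?_ ?_ ?_ ?_
    · intro u hu
      simp only [Finset.mem_filter, Finset.mem_univ, true_and] at hu ⊢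
      exact (hφ u hu).1
    · intro v hv
      simp only [Finset.mem_filter, Finset.mem_univ, true_and] at hv ⊢
      exact (hψ v hv).1
    · intro u hu
      simp only [Finset.mem_filter, Finset.mem_univ, true_and] at hu
      exact (hφ u hu).2.1
    · intro v hv
      simp only [Finset.mem_filter, Finset.mem_univ, true_and] at hv
      exact (hψ v hv).2
    · intro u hu
      simp only [Finset.mem_filter, Finset.mem_univ, true_and] at hu
      exact (hs u hu).symm
  have hc := hsum (fun _ => (1 : ℝ)) (fun _ _ => rfl)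
  simp only [Finset.sum_const, nsmul_eq_mul, mul_one] at hc
  rw [hsum g (fun u hu => (hφ u hu).2.2), hc]

variable {Kp Kq Mm : Type*} [DecidableEq Kp] [DecidableEq Kq] [DecidableEq Mm]

/-- **Commutation from the square.** If a point is determined by the three keys `kp`, `kq`,
`mo`, and every path `G -kp,mo- G₁ -kq- G₂` can be completed by a point `G'` with
`kq G' = kq G`, `kp G' = kp G₂`, `mo G' = mo G₂`, then the conditional expectation given
`(kp, mo)` commutes with those given `(kq, mo)` and given `kq`. -/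
theorem comm_of_square (kp : Ω → Kp) (kq : Ω → Kq) (mo : Ω → Mm)
    (hinj : ∀ G G', kp G = kp G' → kq G = kq G' → mo G = mo G' → G = G')
    (hsq : ∀ G G₁ G₂, kp G = kp G₁ → mo G = mo G₁ → kq G₁ = kq G₂ →
      ∃ G', kq G' = kq G ∧ kp G' = kp G₂ ∧ mo G' = mo G₂) :
    (∀ f : Ω → ℝ, cexp (fun G => (kp G, mo G)) (cexp (fun G => (kq G, mo G)) f) =
        cexp (fun G => (kq G, mo G)) (cexp (fun G => (kp G, mo G)) f)) ∧
      (∀ f : Ω → ℝ, cexp (fun G => (kp G, mo G)) (cexp kq f) =
        cexp kq (cexp (fun G => (kp G, mo G)) f)) := by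
  classical
  have T : ∀ (g : Ω → ℝ) (G₁ G₂ : Ω), kq G₁ = kq G₂ →
      (∀ u u', kq u = kq u' → mo u = mo G₁ → mo u' = mo G₂ → g u = g u') →
      cexp (fun G => (kp G, mo G)) g G₁ = cexp (fun G => (kp G, mo G)) g G₂ := by
    intro g G₁ G₂ h12 hg
    set φ : Ω → Ω := fun u => if h : kp u = kp G₁ ∧ mo u = mo G₁ then
      Classical.choose (hsq u G₁ G₂ h.1 h.2 h12) else u with hφdef
    set ψ : Ω → Ω := fun v => if h : kp v = kp G₂ ∧ mo v = mo G₂ then
      Classical.choose (hsq v G₂ G₁ h.1 h.2 h12.symm) else v with hψdef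
    have hφs : ∀ u, kp u = kp G₁ → mo u = mo G₁ →
        kq (φ u) = kq u ∧ kp (φ u) = kp G₂ ∧ mo (φ u) = mo G₂ := by
      intro u h1 h2
      have hh : kp u = kp G₁ ∧ mo u = mo G₁ := ⟨h1, h2⟩
      have hspec := Classical.choose_spec (hsq u G₁ G₂ h1 h2 h12)
      have hval : φ u = Classical.choose (hsq u G₁ G₂ h1 h2 h12) := by
        simp only [hφdef]
        rw [dif_pos hh]
      rw [hval]
      exact hspec
    have hψs : ∀ v, kp v = kp G₂ → mo v = mo G₂ →
        kq (ψ v) = kq v ∧ kp (ψ v) = kp G₁ ∧ mo (ψ v) = mo G₁ := by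
      intro v h1 h2
      have hh : kp v = kp G₂ ∧ mo v = mo G₂ := ⟨h1, h2⟩
      have hspec := Classical.choose_spec (hsq v G₂ G₁ h1 h2 h12.symm)
      have hval : ψ v = Classical.choose (hsq v G₂ G₁ h1 h2 h12.symm) := by
        simp only [hψdef]
        rw [dif_pos hh]
      rw [hval]
      exact hspec
    refine cexp_eq_of_transport _ g G₁ G₂ φ ψ ?_ ?_
    · intro u hu
      simp only [Prod.mk.injEq] at hu
      obtain ⟨a1, a2, a3⟩ := hφs u hu.1 hu.2
      refine ⟨?_, ?_, ?_⟩
      · simp only [Prod.mk.injEq]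
        exact ⟨a2, a3⟩
      · obtain ⟨b1, b2, b3⟩ := hψs (φ u) a2 a3
        exact hinj _ _ (b2.trans hu.1.symm) (b1.trans a1) (b3.trans hu.2.symm)
      · exact (hg u (φ u) a1.symm hu.2 a3).symm
    · intro v hv
      simp only [Prod.mk.injEq] at hv
      obtain ⟨b1, b2, b3⟩ := hψs v hv.1 hv.2
      refine ⟨?_, ?_⟩
      · simp only [Prod.mk.injEq]
        exact ⟨b2, b3⟩
      · obtain ⟨a1, a2, a3⟩ := hφs (ψ v) b2 b3
        exact hinj _ _ (a2.trans hv.1.symm) (a1.trans b1) (a3.trans hv.2.symm)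
  constructor
  · intro f
    refine cexp_comm_of_preserves _ _ ?_ f
    intro g hg G₁ G₂ h12
    simp only [Prod.mk.injEq] at h12
    refine T g G₁ G₂ h12.1 ?_
    intro u u' huu h1 h2
    refine hg u u' ?_
    simp only [Prod.mk.injEq]
    exact ⟨huu, h1.trans (h12.2.trans h2.symm)⟩
  · intro f
    refine cexp_comm_of_preserves _ _ ?_ f
    intro g hg G₁ G₂ h12
    exact T g G₁ G₂ h12 (fun u u' huu _ _ => hg u u' huu)

end

end Vale.Agent.Lib.P335.H45G
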