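import Vale.Agent.Lib.P335.helper45.PairDefs
import Vale.Agent.Lib.P335.helper12.PairAbstract

/-!
Structural facts for the pairwise inequality of the graph case of P335: Boolean facts on the
2x2 cross block, the margins of the cross block as functions of `G - {z, w}` and `G - {x, y}`,
injectivity of `G ↦ (G - {x, y}, G - {z, w}, Mo G)`, and constancy of `Mo` on classes off `Sep`.
-/

namespace Vale.Agent.Lib.P335.H45G

/-- A 2x2 block of Booleans, in the order `xz, xw, yz, yw`. -/
abbrev B4 : Type := Bool × Bool × Bool × Bool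

/-- The block is one of the two perfect matchings. -/
abbrev sepB (m : B4) : Prop := m = (true, false, false, true) ∨ m = (false, true, true, false)

/-- All four entries flipped. -/
def flip4 (m : B4) : B4 := (!m.1, !m.2.1, !m.2.2.1, !m.2.2.2)

/-- The transposed block. -/
def tr4 (m : B4) : B4 := (m.1, m.2.2.1, m.2.1, m.2.2.2)

theorem b4_inj : ∀ m m' : B4,
    m.1.toNat + m.2.1.toNat = m'.1.toNat + m'.2.1.toNat →
    m.2.2.1.toNat + m.2.2.2.toNat = m'.2.2.1.toNat + m'.2.2.2.toNat →
    m.1.toNat + m.2.2.1.toNat = m'.1.toNat + m'.2.2.1.toNat →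
    m.2.1.toNat + m.2.2.2.toNat = m'.2.1.toNat + m'.2.2.2.toNat →
    mo4 m = mo4 m' → m = m' := by
  decide

set_option synthInstance.maxSize 2048 in
set_option synthInstance.maxHeartbeats 400000 in
theorem b4_const_aux : ∀ m m' m'' : B4, ¬ sepB m →
    (m'.1.toNat + m'.2.2.1.toNat = m.1.toNat + m.2.2.1.toNat →
      m'.2.1.toNat + m'.2.2.2.toNat = m.2.1.toNat + m.2.2.2.toNat → mo4 m' = mo4 m) ∨
    (m''.1.toNat + m''.2.1.toNat = m.1.toNat + m.2.1.toNat →
      m''.2.2.1.toNat + m''.2.2.2.toNat = m.2.2.1.toNat + m.2.2.2.toNat → mo4 m'' = mo4 m) := by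
  decide

theorem b4_const (m : B4) (hm : ¬ sepB m) :
    (∀ m' : B4, m'.1.toNat + m'.2.2.1.toNat = m.1.toNat + m.2.2.1.toNat →
      m'.2.1.toNat + m'.2.2.2.toNat = m.2.1.toNat + m.2.2.2.toNat → mo4 m' = mo4 m) ∨
    (∀ m' : B4, m'.1.toNat + m'.2.1.toNat = m.1.toNat + m.2.1.toNat →
      m'.2.2.1.toNat + m'.2.2.2.toNat = m.2.2.1.toNat + m.2.2.2.toNat → mo4 m' = mo4 m) := by
  by_cases h : ∀ m' : B4, m'.1.toNat + m'.2.2.1.toNat = m.1.toNat + m.2.2.1.toNat →
      m'.2.1.toNat + m'.2.2.2.toNat = m.2.1.toNat + m.2.2.2.toNat → mo4 m' = mo4 m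
  · exact Or.inl h
  · right
    intro m''
    obtain ⟨m', hm'⟩ := not_forall.mp h
    rcases b4_const_aux m m' m'' hm with h1 | h2
    · exact absurd h1 hm'
    · exact h2

theorem b4_sep_eq : ∀ m m' : B4, mo4 m = mo4 m' → sepB m → m' = m := by
  decide

theorem b4_sep_two : ∀ m m' : B4, sepB m → sepB m' → m' = m ∨ m' = flip4 m := by
  decide

theorem b4_mo_sep : ∀ m : B4, sepB m → mo4 m = m := by
  decide

theorem b4_flip_sep : ∀ m : B4, sepB m → sepB (flip4 m) := by
  decide

theorem b4_mo_tr : ∀ m : B4, mo4 (tr4 m) = tr4 (mo4 m) := by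
  decide

theorem b4_tr_tr : ∀ m : B4, tr4 (tr4 m) = m := by
  decide

end Vale.Agent.Lib.P335.H45G

namespace Vale.Agent.Lib.P335.H45G

open Finset
open scoped Classical
open Vale.Agent.Lib.P335 Vale.Agent.Lib.P335.Bip Vale.Agent.Lib.P335.Gr

variable {n : ℕ} {d : Fin n → ℕ} {x y z w : Fin n}

theorem sep_iff_cb (x y z w : Fin n) (G : SimpleGraph (Fin n)) :
    Sep x y z w G ↔ sepB (cb x y z w G) := by
  unfold Sep sepB cb
  simp only [Prod.mk.injEq, decide_eq_true_eq, decide_eq_false_iff_not]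
  tauto

theorem sep_swap (x y z w : Fin n) : Sep z w x y = Sep x y z w := by
  funext G
  apply propext
  unfold Sep
  rw [G.adj_comm z x, G.adj_comm w y, G.adj_comm z y, G.adj_comm w x]
  tauto

theorem cb_swap (x y z w : Fin n) (G : SimpleGraph (Fin n)) :
    cb z w x y G = tr4 (cb x y z w G) := by
  unfold cb tr4
  simp only [G.adj_comm z x, G.adj_comm w y, G.adj_comm z y, G.adj_comm w x]

theorem mo_swap (x y z w : Fin n) (G : SimpleGraph (Fin n)) :
    Mo z w x y G = tr4 (Mo x y z w G) := by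
  unfold Mo
  rw [cb_swap, b4_mo_tr]

theorem mo_swap_eq_iff (x y z w : Fin n) (G G' : SimpleGraph (Fin n)) :
    Mo z w x y G = Mo z w x y G' ↔ Mo x y z w G = Mo x y z w G' := by
  rw [mo_swap x y z w G, mo_swap x y z w G']
  constructor
  · intro h
    have := congrArg tr4 h
    rwa [b4_tr_tr, b4_tr_tr] at this
  · intro h
    rw [h]

/-- The number of neighbours of `v` in `{a, b}` is a function of `G - {a, b}`. -/
theorem two_count_of_gmask {a b : Fin n} (hab : a ≠ b) (v : Fin n) (hva : v ≠ a) (hvb : v ≠ b)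
    (G G' : Omega n d) (h : gmask {a, b} G.1 = gmask {a, b} G'.1) :
    (decide (G.1.Adj v a)).toNat + (decide (G.1.Adj v b)).toNat =
      (decide (G'.1.Adj v a)).toNat + (decide (G'.1.Adj v b)).toNat := by
  have h' := (gmask_eq_iff _ _ _).mp h
  have key := degree_two_transfer (G := G.1) (G' := G'.1) (v := v) hab
    (fun u hua hub => h' v u (by simp [hva, hvb]) (by simp [hua, hub]))
  have h1 := G.2 v
  have h2 := G'.2 v
  omega

/-- Row sums of the cross block are functions of `G - {z, w}`. -/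
theorem rows_of_gmask (hxz : x ≠ z) (hxw : x ≠ w) (hyz : y ≠ z) (hyw : y ≠ w) (hzw : z ≠ w)
    (G G' : Omega n d) (h : gmask {z, w} G.1 = gmask {z, w} G'.1) :
    (cb x y z w G.1).1.toNat + (cb x y z w G.1).2.1.toNat =
        (cb x y z w G'.1).1.toNat + (cb x y z w G'.1).2.1.toNat ∧
      (cb x y z w G.1).2.2.1.toNat + (cb x y z w G.1).2.2.2.toNat =
        (cb x y z w G'.1).2.2.1.toNat + (cb x y z w G'.1).2.2.2.toNat :=
  ⟨two_count_of_gmask hzw x hxz hxw G G' h, two_count_of_gmask hzw y hyz hyw G G' h⟩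

/-- Column sums of the cross block are functions of `G - {x, y}`. -/
theorem cols_of_gmask (hxy : x ≠ y) (hxz : x ≠ z) (hxw : x ≠ w) (hyz : y ≠ z) (hyw : y ≠ w)
    (G G' : Omega n d) (h : gmask {x, y} G.1 = gmask {x, y} G'.1) :
    (cb x y z w G.1).1.toNat + (cb x y z w G.1).2.2.1.toNat =
        (cb x y z w G'.1).1.toNat + (cb x y z w G'.1).2.2.1.toNat ∧
      (cb x y z w G.1).2.1.toNat + (cb x y z w G.1).2.2.2.toNat =
        (cb x y z w G'.1).2.1.toNat + (cb x y z w G'.1).2.2.2.toNat := by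
  have h1 := two_count_of_gmask hxy z hxz.symm hyz.symm G G' h
  have h2 := two_count_of_gmask hxy w hxw.symm hyw.symm G G' h
  rw [G.1.adj_comm z x, G.1.adj_comm z y, G'.1.adj_comm z x, G'.1.adj_comm z y] at h1
  rw [G.1.adj_comm w x, G.1.adj_comm w y, G'.1.adj_comm w x, G'.1.adj_comm w y] at h2
  exact ⟨h1, h2⟩

/-- A graph of `Omega n d` is determined by `G - {x, y}`, `G - {z, w}` and `Mo`. -/
theorem omega_inj (hxy : x ≠ y) (hxz : x ≠ z) (hxw : x ≠ w) (hyz : y ≠ z) (hyw : y ≠ w)
    (hzw : z ≠ w) (G G' : Omega n d) (hp : gmask {x, y} G.1 = gmask {x, y} G'.1)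
    (hq : gmask {z, w} G.1 = gmask {z, w} G'.1) (hm : Mo x y z w G.1 = Mo x y z w G'.1) :
    G = G' := by
  have hr := rows_of_gmask hxz hxw hyz hyw hzw G G' hq
  have hc := cols_of_gmask hxy hxz hxw hyz hyw G G' hp
  have hcb : cb x y z w G.1 = cb x y z w G'.1 := b4_inj _ _ hr.1 hr.2 hc.1 hc.2 hm
  have e1 : G.1.Adj x z ↔ G'.1.Adj x z := by
    have := congrArg (fun m : B4 => m.1) hcb
    simpa [cb] using this
  have e2 : G.1.Adj x w ↔ G'.1.Adj x w := by
    have := congrArg (fun m : B4 => m.2.1) hcb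
    simpa [cb] using this
  have e3 : G.1.Adj y z ↔ G'.1.Adj y z := by
    have := congrArg (fun m : B4 => m.2.2.1) hcb
    simpa [cb] using this
  have e4 : G.1.Adj y w ↔ G'.1.Adj y w := by
    have := congrArg (fun m : B4 => m.2.2.2) hcb
    simpa [cb] using this
  have hp' := (gmask_eq_iff _ _ _).mp hp
  have hq' := (gmask_eq_iff _ _ _).mp hq
  have cross : ∀ a b, (a = x ∨ a = y) → (b = z ∨ b = w) → (G.1.Adj a b ↔ G'.1.Adj a b) := by
    rintro a b (rfl | rfl) (rfl | rfl)
    · exact e1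
    · exact e2
    · exact e3
    · exact e4
  apply Subtype.ext
  ext a b
  by_cases ha : a = x ∨ a = y
  · by_cases hb : b = z ∨ b = w
    · exact cross a b ha hb
    · refine hq' a b ?_ ?_
      · simp only [Finset.mem_insert, Finset.mem_singleton]
        rcases ha with rfl | rfl
        · exact fun h => h.elim hxz hxw
        · exact fun h => h.elim hyz hyw
      · simpa only [Finset.mem_insert, Finset.mem_singleton] using hb
  · by_cases hb : b = x ∨ b = y
    · by_cases ha' : a = z ∨ a = w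
      · rw [G.1.adj_comm a b, G'.1.adj_comm a b]
        exact cross b a hb ha'
      · refine hq' a b ?_ ?_
        · simpa only [Finset.mem_insert, Finset.mem_singleton] using ha'
        · simp only [Finset.mem_insert, Finset.mem_singleton]
          rcases hb with rfl | rfl
          · exact fun h => h.elim hxz hxw
          · exact fun h => h.elim hyz hyw
    · refine hp' a b ?_ ?_
      · simpa only [Finset.mem_insert, Finset.mem_singleton] using ha
      · simpa only [Finset.mem_insert, Finset.mem_singleton] using hb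

/-- Off `Sep`, the key `Mo` is constant on the `{x, y}`-class or on the `{z, w}`-class. -/
theorem mo_const_of_not_sep (hxy : x ≠ y) (hxz : x ≠ z) (hxw : x ≠ w) (hyz : y ≠ z)
    (hyw : y ≠ w) (hzw : z ≠ w) (G : Omega n d) (hS : ¬ Sep x y z w G.1) :
    (∀ G' : Omega n d, gmask {x, y} G'.1 = gmask {x, y} G.1 →
        Mo x y z w G'.1 = Mo x y z w G.1) ∨
      (∀ G' : Omega n d, gmask {z, w} G'.1 = gmask {z, w} G.1 →
        Mo x y z w G'.1 = Mo x y z w G.1) := by
  rw [sep_iff_cb] at hS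
  rcases b4_const (cb x y z w G.1) hS with h | h
  · left
    intro G' hG'
    have hc := cols_of_gmask hxy hxz hxw hyz hyw G' G hG'
    exact h _ hc.1 hc.2
  · right
    intro G' hG'
    have hr := rows_of_gmask hxz hxw hyz hyw hzw G' G hG'
    exact h _ hr.1 hr.2

end Vale.Agent.Lib.P335.H45G
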