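import Vale.Agent.Lib.P335.helper45.PairFacts
import Vale.Agent.Lib.P335.helper45.PairComm
import Vale.Agent.Lib.P335.helper57.TauFacts
import Vale.Agent.Lib.P335.helper56.Square

/-!
The pairwise inequality of the graph case of P335.

For pairwise distinct vertices `x y z w` and every `f : Omega n d → ℝ`,

`ip (f - GR {x, y} f) (f - GR {z, w} f) ≥
   (1/4) ∑ (f G - f (tau x y z w G))^2 - (1/2) K x y z w f - (1/2) K z w x y f`.
-/

namespace Vale.Agent.Lib.P335.H45G

open Finset
open scoped Classical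
open Vale.Agent.Lib.P335 Vale.Agent.Lib.P335.Bip Vale.Agent.Lib.P335.Gr

variable {n : ℕ} {d : Fin n → ℕ} {x y z w : Fin n}

/-- `Sep` is the set of graphs moved by the switch. -/
theorem tau_ne_iff (hxy : x ≠ y) (hxz : x ≠ z) (hxw : x ≠ w) (hyz : y ≠ z) (hyw : y ≠ w)
    (hzw : z ≠ w) (G : Omega n d) : tau x y z w G ≠ G ↔ Sep x y z w G.1 := by
  rw [Ne, H57.tau_eq_self_iff hxy hxz hxw hyz hyw hzw, not_not]

/-- `K` in terms of the key `(G - {x, y}, decide (tau G ≠ G))`. -/
theorem K_bridge [DecidableEq (Omega n d)] (hxy : x ≠ y) (hxz : x ≠ z) (hxw : x ≠ w)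
    (hyz : y ≠ z) (hyw : y ≠ w) (hzw : z ≠ w) (f : Omega n d → ℝ) :
    K x y z w f = ∑ G : Omega n d, (if tau x y z w G ≠ G then
      (cexp (fun G' : Omega n d => (gmask {x, y} G'.1, decide (tau x y z w G' ≠ G'))) f G -
        cexp (fun G' : Omega n d => gmask {x, y} G'.1) f G) ^ 2 else 0) := by
  have hne := tau_ne_iff (d := d) hxy hxz hxw hyz hyw hzw
  have e : cexp (fun G : Omega n d => (gmask {x, y} G.1, Sep x y z w G.1)) f =
      cexp (fun G' : Omega n d => (gmask {x, y} G'.1, decide (tau x y z w G' ≠ G'))) f := by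
    refine cexp_same_fibres _ _ (fun a b => ?_) f
    simp only [Prod.mk.injEq, decide_eq_decide, eq_iff_iff, hne a, hne b]
  unfold K GRX GR
  refine Finset.sum_congr rfl (fun G _ => ?_)
  rw [e]
  by_cases hS : Sep x y z w G.1
  · rw [if_pos hS, if_pos ((hne G).mpr hS)]
  · rw [if_neg hS, if_neg (fun h => hS ((hne G).mp h))]

/-- **Pairwise inequality** for two disjoint pole pairs `{x, y}` and `{z, w}`. -/
theorem pairwise (hxy : x ≠ y) (hxz : x ≠ z) (hxw : x ≠ w) (hyz : y ≠ z) (hyw : y ≠ w)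
    (hzw : z ≠ w) (f : Omega n d → ℝ) :
    (1 / 4 : ℝ) * ∑ G, (f G - f (tau x y z w G)) ^ 2 - (1 / 2) * K x y z w f
        - (1 / 2) * K z w x y f
      ≤ ip (f - GR {x, y} f) (f - GR {z, w} f) := by
  -- facts on the switch
  have hτ2 := H57.tau_tau (d := d) hxy hxz hxw hyz hyw hzw
  have hτp := H57.gmask_tau_left (d := d) hxy hxz hxw hyz hyw hzw
  have hτq := H57.gmask_tau_right (d := d) hxy hxz hxw hyz hyw hzw
  have hτfix := H57.tau_eq_self_iff (d := d) hxy hxz hxw hyz hyw hzw
  have hτcb : ∀ G : Omega n d, Sep x y z w G.1 →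
      cb x y z w (tau x y z w G).1 = flip4 (cb x y z w G.1) :=
    fun G hS => H57.cb_tau hxy hxz hxw hyz hyw hzw G hS
  -- structure
  have hinj := omega_inj (d := d) hxy hxz hxw hyz hyw hzw
  have hsqp := H56.square_completion (d := d) hxy hxz hxw hyz hyw hzw
  have hsqq : ∀ G G₁ G₂ : Omega n d, gmask {z, w} G.1 = gmask {z, w} G₁.1 →
      Mo x y z w G.1 = Mo x y z w G₁.1 → gmask {x, y} G₁.1 = gmask {x, y} G₂.1 →
      ∃ G' : Omega n d, gmask {x, y} G'.1 = gmask {x, y} G.1 ∧
        gmask {z, w} G'.1 = gmask {z, w} G₂.1 ∧ Mo x y z w G'.1 = Mo x y z w G₂.1 := by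
    intro G G₁ G₂ h1 h2 h3
    obtain ⟨G', a1, a2, a3⟩ := H56.square_completion (d := d) hzw hxz.symm hyz.symm hxw.symm
      hyw.symm hxy G G₁ G₂ h1 ((mo_swap_eq_iff x y z w G.1 G₁.1).mpr h2) h3
    exact ⟨G', a1, a2, (mo_swap_eq_iff x y z w G'.1 G₂.1).mp a3⟩
  have c1 := comm_of_square (fun G : Omega n d => gmask {x, y} G.1)
    (fun G : Omega n d => gmask {z, w} G.1) (fun G : Omega n d => Mo x y z w G.1) hinj hsqp
  have c2 := comm_of_square (fun G : Omega n d => gmask {z, w} G.1)
    (fun G : Omega n d => gmask {x, y} G.1) (fun G : Omega n d => Mo x y z w G.1)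
    (fun G G' a b c => hinj G G' b a c) hsqq
  -- the key `Mo` and the switch
  have hsepMo : ∀ G G' : Omega n d, Mo x y z w G.1 = Mo x y z w G'.1 →
      Sep x y z w G.1 → cb x y z w G'.1 = cb x y z w G.1 ∧ Sep x y z w G'.1 := by
    intro G G' h hS
    have hS' := (sep_iff_cb x y z w G.1).mp hS
    have hcb : cb x y z w G'.1 = cb x y z w G.1 := b4_sep_eq _ _ h hS'
    refine ⟨hcb, ?_⟩
    rw [sep_iff_cb, hcb]
    exact hS'
  have hMoτ : ∀ G G' : Omega n d, Mo x y z w G.1 = Mo x y z w G'.1 →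
      Mo x y z w (tau x y z w G).1 = Mo x y z w (tau x y z w G').1 := by
    intro G G' h
    by_cases hS : Sep x y z w G.1
    · obtain ⟨hcb, hSG'⟩ := hsepMo G G' h hS
      unfold Mo
      rw [hτcb G hS, hτcb G' hSG', hcb]
    · have hSG' : ¬ Sep x y z w G'.1 := fun hS2 => hS (hsepMo G' G h.symm hS2).2
      rw [(hτfix G).mpr hS, (hτfix G').mpr hSG']
      exact h
  have hfixMo : ∀ G G' : Omega n d, Mo x y z w G.1 = Mo x y z w G'.1 →
      (tau x y z w G = G ↔ tau x y z w G' = G') := by
    intro G G' h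
    rw [hτfix, hτfix]
    exact not_congr ⟨fun hS => (hsepMo G G' h hS).2, fun hS => (hsepMo G' G h.symm hS).2⟩
  have hm : ∀ G G' : Omega n d, tau x y z w G ≠ G → tau x y z w G' ≠ G' →
      Mo x y z w G'.1 = Mo x y z w G.1 ∨
        Mo x y z w G'.1 = Mo x y z w (tau x y z w G).1 := by
    intro G G' h1 h2
    have hS : Sep x y z w G.1 := (tau_ne_iff hxy hxz hxw hyz hyw hzw G).mp h1
    have hS' : Sep x y z w G'.1 := (tau_ne_iff hxy hxz hxw hyz hyw hzw G').mp h2
    rcases b4_sep_two _ _ ((sep_iff_cb x y z w G.1).mp hS) ((sep_iff_cb x y z w G'.1).mp hS')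
      with h | h
    · left
      unfold Mo
      rw [h]
    · right
      unfold Mo
      rw [hτcb G hS, h]
  -- the sector hypothesis: every term vanishes
  have hS0 : ∀ f : Omega n d → ℝ, 0 ≤ ∑ G : Omega n d, if tau x y z w G = G then
      (cexp (fun G : Omega n d => (gmask {x, y} G.1, Mo x y z w G.1)) f G -
          cexp (fun G : Omega n d => gmask {x, y} G.1) f G) *
        (cexp (fun G : Omega n d => (gmask {z, w} G.1, Mo x y z w G.1)) f G -
          cexp (fun G : Omega n d => gmask {z, w} G.1) f G) else 0 := by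
    intro f
    refine le_of_eq (Finset.sum_eq_zero (fun G _ => ?_)).symm
    by_cases hG : tau x y z w G = G
    · rw [if_pos hG]
      have hS : ¬ Sep x y z w G.1 := (hτfix G).mp hG
      rcases mo_const_of_not_sep hxy hxz hxw hyz hyw hzw G hS with h | h
      · have e := H12.cexp_eq_of_class_eq (fun G : Omega n d => gmask {x, y} G.1)
          (fun G : Omega n d => (gmask {x, y} G.1, Mo x y z w G.1))
          (fun a b hab => (Prod.mk.inj hab).1) G
          (fun G' hG' => Prod.ext hG' (h G' hG')) f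
        rw [e, sub_self, zero_mul]
      · have e := H12.cexp_eq_of_class_eq (fun G : Omega n d => gmask {z, w} G.1)
          (fun G : Omega n d => (gmask {z, w} G.1, Mo x y z w G.1))
          (fun a b hab => (Prod.mk.inj hab).1) G
          (fun G' hG' => Prod.ext hG' (h G' hG')) f
        rw [e, sub_self, mul_zero]
    · rw [if_neg hG]
  have main := H12.pair_abstract (fun G : Omega n d => gmask {x, y} G.1)
    (fun G : Omega n d => gmask {z, w} G.1)
    (fun G : Omega n d => (gmask {x, y} G.1, Mo x y z w G.1))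
    (fun G : Omega n d => (gmask {z, w} G.1, Mo x y z w G.1)) (tau x y z w)
    (fun a b hab => (Prod.mk.inj hab).1) (fun a b hab => (Prod.mk.inj hab).1)
    c1.1 c1.2 c2.2 hτ2 hτp hτq
    (fun a b hab => Prod.ext (by rw [hτp a, hτp b]; exact (Prod.mk.inj hab).1)
      (hMoτ a b (Prod.mk.inj hab).2))
    (fun a b hab => Prod.ext (by rw [hτq a, hτq b]; exact (Prod.mk.inj hab).1)
      (hMoτ a b (Prod.mk.inj hab).2))
    (fun a b hab => hfixMo a b (Prod.mk.inj hab).2)
    (fun a b hab => hfixMo a b (Prod.mk.inj hab).2)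
    (fun a b ha hb hab => by
      rcases hm a b ha hb with h | h
      · exact Or.inl (Prod.ext hab.symm h)
      · exact Or.inr (Prod.ext (hab.symm.trans (hτp a).symm) h))
    (fun a b ha hb hab => by
      rcases hm a b ha hb with h | h
      · exact Or.inl (Prod.ext hab.symm h)
      · exact Or.inr (Prod.ext (hab.symm.trans (hτq a).symm) h))
    hS0 f
  -- identify the two `K` terms
  have hK1 := K_bridge (d := d) hxy hxz hxw hyz hyw hzw f
  have hK2 : K z w x y f = ∑ G : Omega n d, (if tau x y z w G ≠ G then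
      (cexp (fun G' : Omega n d => (gmask {z, w} G'.1, decide (tau x y z w G' ≠ G'))) f G -
        cexp (fun G' : Omega n d => gmask {z, w} G'.1) f G) ^ 2 else 0) := by
    have hne := tau_ne_iff (d := d) hxy hxz hxw hyz hyw hzw
    have e : cexp (fun G : Omega n d => (gmask {z, w} G.1, Sep x y z w G.1)) f =
        cexp (fun G' : Omega n d => (gmask {z, w} G'.1, decide (tau x y z w G' ≠ G'))) f := by
      refine cexp_same_fibres _ _ (fun a b => ?_) f
      simp only [Prod.mk.injEq, decide_eq_decide, eq_iff_iff, hne a, hne b]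
    unfold K GRX GR
    rw [sep_swap x y z w]
    refine Finset.sum_congr rfl (fun G _ => ?_)
    rw [e]
    by_cases hS : Sep x y z w G.1
    · rw [if_pos hS, if_pos ((hne G).mpr hS)]
    · rw [if_neg hS, if_neg (fun h => hS ((hne G).mp h))]
  rw [hK1, hK2]
  exact main

end Vale.Agent.Lib.P335.H45G
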